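import Vale.Agent.P269.R2.H284.Defs

/-!
# P269: complete intersection surfaces, definitions
-/

noncomputable section

namespace Vale.Agent.P269.R2.H637

open Finset Vale.Agent.P269.R2.H284
open scoped Classical

/-- The cohomological data of a complete intersection surface of degrees `e_j` in projective space of
dimension `c + 2`: the basis `1, h, h^2` and a basis `V` of the primitive part of `H^2`, of Hodge
types `(pV v, qV v)` and with pairing `ηV`; `M` is the monoid of curve classes and `deg` the degree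
of curve classes (the pairing with `h`). -/
def surf {c : ℕ} (e : Fin c → ℕ) (V : Type) [Fintype V] (pV qV : V → ℕ) (ηV : Matrix V V ℂ)
    (M : Type) [AddCommMonoid M] [HasAntidiagonal M] (deg : M → ℕ) : Target where
  A := Fin (2 + 1) ⊕ V
  B := M
  D := 2
  p := (ci 2 e V pV qV ηV).p
  q := (ci 2 e V pV qV ηV).q
  one := Sum.inl 0
  η := (ci 2 e V pV qV ηV).η
  C := (ci 2 e V pV qV ηV).C
  c1 β := idx (2 + c) e * (deg β : ℤ)
  c1cD := (ci 2 e V pV qV ηV).c1cD
  χ := (ci 2 e V pV qV ηV).χ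

/-- The hyperplane class of a complete intersection surface. -/
def surfDiv {c : ℕ} (e : Fin c → ℕ) (V : Type) [Fintype V] (pV qV : V → ℕ) (ηV : Matrix V V ℂ)
    (M : Type) [AddCommMonoid M] [HasAntidiagonal M] (deg : M → ℕ) :
    Divisor (surf e V pV qV ηV M deg) where
  H := (ciDiv 2 e V pV qV ηV).H
  deg β := (deg β : ℤ)
  hc := (ciDiv 2 e V pV qV ηV).hc

section
variable {T : Target}

/-- The divisor equation with a general degree function. -/
def DivEq (T : Target) (P : Divisor T) (δ : T.B → ℂ) (F : Corr T) : Prop :=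
  ∀ g d S, ∑ b, P.H T.one b * F g d ((0, b) :: S) =
    δ d * F g d S + der (divh P) (F g d) S +
    (if g = 0 ∧ d = 0 then two T (P.H * T.η) S else 0) +
    (if g = 1 ∧ d = 0 then cst T (-(P.hc / 24)) S else 0)

/-- number of insertions `τ_0(φ_a)` with `A0 a` -/
def nA (A0 : T.A → Prop) : List T.Ins → ℕ
  | [] => 0
  | s :: S => (if s.1 = 0 ∧ A0 s.2 then 1 else 0) + nA A0 S

/-- number of insertions `τ_m(φ_a)` with `m ≥ 1` and `B0 a` -/
def nB (B0 : T.A → Prop) : List T.Ins → ℕ
  | [] => 0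
  | s :: S => (if s.1 ≠ 0 ∧ B0 s.2 then 1 else 0) + nB B0 S

/-- insertions which remain after the reduction -/
def RedS (A₁ A₂ : T.A → Prop) (S : List T.Ins) : Prop :=
  ∀ s ∈ S, 3 ≤ 2 * s.1 + T.p s.2 + T.q s.2 ∨ (s.1 = 0 ∧ (A₁ s.2 ∨ A₂ s.2))

/-- The sum of `m + f(φ) - 1` over the insertions `τ_m(φ)`. -/
def wgt (f : T.A → ℕ) (S : List T.Ins) : ℤ := (S.map fun s => ((s.1 + f s.2 : ℕ) : ℤ) - 1).sum

end

/-- classes of type `(2,0)` -/
def TwoZero (T : Target) (a : T.A) : Prop := T.p a = 2 ∧ T.q a = 0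

/-- classes of type `(0,2)` -/
def ZeroTwo (T : Target) (a : T.A) : Prop := T.p a = 0 ∧ T.q a = 2

/-- The cup product by the primitive class `φ_v` of a complete intersection surface:
`1 ↦ φ_v`, `φ_w ↦ ηV v w / (∏ e_j) h^2`. -/
def primDiv {c : ℕ} (e : Fin c → ℕ) (V : Type) [Fintype V] (pV qV : V → ℕ) (ηV : Matrix V V ℂ)
    (M : Type) [AddCommMonoid M] [HasAntidiagonal M] (deg : M → ℕ) (v : V) :
    Divisor (surf e V pV qV ηV M deg) where
  H := Matrix.fromBlocks 0
    (Matrix.of fun (i : Fin (2 + 1)) (w : V) => if (i : ℕ) = 0 ∧ w = v then (1 : ℂ) else 0)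
    (Matrix.of fun (w : V) (i : Fin (2 + 1)) =>
      if (i : ℕ) = 2 then ηV v w / ∏ k, (e k : ℂ) else 0) 0
  deg := fun _ => 0
  hc := 0

/-- The integrals of the primitive classes over the curve classes: additive, and zero for the
classes of type `(2,0)` and `(0,2)`. -/
structure IsPeriods {V : Type} (pV : V → ℕ) {M : Type} [AddCommMonoid M] (per : V → M → ℂ) :
    Prop where
  zero : ∀ v, per v 0 = 0
  add : ∀ v β γ, per v (β + γ) = per v β + per v γ
  type : ∀ v β, pV v ≠ 1 → per v β = 0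

/-- The standard properties of the descendant Gromov-Witten invariants of a complete intersection
surface: `IsGW0`, the divisor equation for `h` and for every primitive class. -/
structure IsSurfGW {c : ℕ} (e : Fin c → ℕ) (V : Type) [Fintype V] (pV qV : V → ℕ)
    (ηV : Matrix V V ℂ) (M : Type) [AddCommMonoid M] [HasAntidiagonal M] (deg : M → ℕ)
    (per : V → M → ℂ) (F : Corr (surf e V pV qV ηV M deg)) : Prop where
  gw : IsGW0 (surf e V pV qV ηV M deg) F
  divh : IsGWDiv (surf e V pV qV ηV M deg) (surfDiv e V pV qV ηV M deg) F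
  divp : ∀ v, DivEq (surf e V pV qV ηV M deg) (primDiv e V pV qV ηV M deg v) (per v) F

/-- The set of reduced constraints of a complete intersection surface in genus `g` and class `β`:
pairs `(K, S)` with `K ≥ 2` (that is, `L_k` with `k = K - 1 ≥ 1`) such that the insertions of `S`
are `τ_m(φ)` with `2 m + p + q ≥ 3` or `τ_0(φ)` with `φ` of type `(2,0)` or `(0,2)`, the dimension
condition holds for both parts of the Hodge type, and there are at most eight more insertions
`τ_0(φ)` with `φ` of type `(2,0)` (`(0,2)`) than insertions `τ_m(φ)`, `m ≥ 1`, with `p = 0`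
(`q = 0`). -/
def redSet {c : ℕ} (e : Fin c → ℕ) (V : Type) [Fintype V] (pV qV : V → ℕ) (ηV : Matrix V V ℂ)
    (M : Type) [AddCommMonoid M] [HasAntidiagonal M] (deg : M → ℕ) (g : ℕ) (β : M) :
    Set (ℕ × List (surf e V pV qV ηV M deg).Ins) :=
  {x | 2 ≤ x.1 ∧ RedS (TwoZero _) (ZeroTwo _) x.2 ∧
    wgt (surf e V pV qV ηV M deg).p x.2 + ((x.1 : ℤ) - 1) = (g : ℤ) - 1 + idx (2 + c) e * deg β ∧
    wgt (surf e V pV qV ηV M deg).q x.2 + ((x.1 : ℤ) - 1) = (g : ℤ) - 1 + idx (2 + c) e * deg β ∧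
    nA (TwoZero _) x.2 ≤ nB (fun a => (surf e V pV qV ηV M deg).p a = 0) x.2 + 8 ∧
    nA (ZeroTwo _) x.2 ≤ nB (fun a => (surf e V pV qV ηV M deg).q a = 0) x.2 + 8}

end Vale.Agent.P269.R2.H637
end
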