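import Vale.Agent.P269.R2.H637.Van

/-!
# P269: the divisor equation of `Z⁻¹ L_k Z` with a general degree function, and the reduction for
targets with several classes of degree two
-/

noncomputable section

namespace Vale.Agent.P269.R2.H637

open Finset Vale.Agent.P269.R2.H284
open scoped Classical

variable {T : Target} {P : Divisor T}

theorem div_isOpC (hT : IsTarget T) (hP : IsDivisor T P) {F : Corr T} {δ : T.B → ℂ}
    (hδ : ∀ d d', δ (d + d') = δ d + δ d') (hD : DivEq T P δ F) :
    IsOp T (hv P) (divh P) F (fun _ d => δ d) 0 (P.H * T.η) (-(P.hc / 24)) where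
  vev := hv_even hT hP
  Rev := divh_even hP
  lam_add := by
    intro g d gg hgg dd hdd
    have h1 : dd.1 + dd.2 = d := by simpa using hdd
    rw [← h1, hδ]
    ring
  lam_one := by
    intro g d
    ring
  eq := by
    intro g d S
    unfold op
    rw [ins_hv, hD g d S]
    ring

/-- the divisor equation for the coefficients of `Z⁻¹ L_k Z` -/
theorem z_divC_aux (hT : IsTarget T) (hP : IsDivisor T P) {F : Corr T} (hF : IsGW T F)
    {δ : T.B → ℂ} (hδ0 : δ 0 = 0) (hδ : ∀ d d', δ (d + d') = δ d + δ d')
    (hD : DivEq T P δ F) (K g : ℕ) (d : T.B) (S : List T.Ins) :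
    op (hv P) (divh P) (z F (K + 1) g d) S = δ d * z F (K + 1) g d S := by
  have hO := div_isOpC hT hP hδ hD
  have hins : ∀ (u : T.Ins →₀ ℂ) (κ : ℂ),
      ins u (fun S => if g = 1 ∧ d = 0 then cst T κ S else 0) = 0 := by
    intro u κ
    funext S
    rw [ins_of_zero]
    · rfl
    · intro x
      split_ifs <;> rfl
  have hder : ∀ (κ : ℂ) (R : T.Ins → (T.Ins →₀ ℂ)) (S : List T.Ins),
      der R (fun S => if g = 1 ∧ d = 0 then cst T κ S else 0) S = 0 := by
    intro κ R S
    cases S with
    | nil => rfl
    | cons s S =>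
      rw [der_cons, ins_of_zero]
      · have : (fun S => (fun S => if g = 1 ∧ d = 0 then cst T κ S else 0) (s :: S))
            = 0 := by
          funext S
          simp only
          split_ifs <;> rfl
        rw [this, der_zero]
        ring
      · intro x
        split_ifs <;> rfl
  have hfn : op (hv P) (divh P) (F g d) = δ d • F g d +
      (fun S => if g = 0 ∧ d = 0 then two T (P.H * T.η) S else 0) +
      fun S => if g = 1 ∧ d = 0 then cst T (-(P.hc / 24)) S else 0 := by
    funext S
    rw [hO.eq]
    simp only [Pi.add_apply, Pi.smul_apply, smul_eq_mul]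
  rw [z_eq]
  simp only [op_add, op_smul, Pi.add_apply, Pi.smul_apply, smul_eq_mul]
  rw [op_ins hO.vev (hF.sy g d).ev, op_der]
  rw [op_finsupp_sum (biv T (K + 1)) (fun xy => Phi F g d xy.1 xy.2) S]
  have e2 : (fun s => ext (divh P) (vir T (K + 1) s)) =
      fun s => ext (vir T (K + 1)) (divh P s) + bth T P (K + 1) s := by
    funext s; exact divh_vir hP _ s
  have e4 : ((biv T (K + 1)).sum fun xy c => c * op (hv P) (divh P)
      (Phi F g d xy.1 xy.2) S) = δ d *
      ((biv T (K + 1)).sum fun xy c => c * Phi F g d xy.1 xy.2 S) -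
        2 * der (bth T P (K + 1)) (F g d) S := by
    have e5 : ((biv T (K + 1)).sum fun xy c => c * op (hv P) (divh P)
        (Phi F g d xy.1 xy.2) S) = δ d *
        ((biv T (K + 1)).sum fun xy c => c * Phi F g d xy.1 xy.2 S) +
        (((biv T (K + 1)).sum fun xy c => c *
          (((divh P xy.1).sum fun x' e => e * Phi F g d x' xy.2 S) +
            ((divh P xy.2).sum fun y' e => e * Phi F g d xy.1 y' S))) +
        ((biv T (K + 1)).sum fun xy c => c * excM (P.H * T.η) F g d xy.1 xy.2 S)) := by
      rw [Finsupp.mul_sum, ← Finsupp.sum_add, ← Finsupp.sum_add]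
      apply Finsupp.sum_congr
      intro xy _
      rw [op_Phi hF hO g d xy.1 xy.2 (fun y' hy' => hO.Rev _ _ hy')]
      ring
    rw [e5, divh_biv hT hP (K + 1) (fun x y => Phi F g d x y S)]
    have e6 : ((biv T (K + 1)).sum fun xy c => c * excM (P.H * T.η) F g d xy.1 xy.2 S) =
        (if g = 1 ∧ d = 0 then
          ((biv T (K + 1)).sum fun xy c => c * two T (P.H * T.η) (xy.1 :: xy.2 :: S)) else 0) +
        (((biv T (K + 1)).sum fun xy c => c * mul (T.par xy.2.2)
          (fun S => two T (P.H * T.η) (xy.1 :: S)) (fun S => F g d (xy.2 :: S)) S) +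
        ((biv T (K + 1)).sum fun xy c => c * mul (T.par xy.2.2)
          (fun S => F g d (xy.1 :: S)) (fun S => two T (P.H * T.η) (xy.2 :: S)) S)) := by
      rw [← Finsupp.sum_add]
      by_cases h : g = 1 ∧ d = 0
      · rw [if_pos h, ← Finsupp.sum_add]
        apply Finsupp.sum_congr
        intro xy _
        rw [excM, if_pos h]; ring
      · rw [if_neg h, zero_add]
        apply Finsupp.sum_congr
        intro xy _
        rw [excM, if_neg h]; ring
    rw [e6, contrh_left hT hP _ (hF.sy g d), contrh_right hT hP _ (hF.sy g d) (hF.pt g d),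
      biv_twoh hT hP]
    simp only [ite_self]
    ring
  rw [e2, der_addR, e4, vir_hv hT hP, hfn]
  simp only [ins_add_fn, ins_smul_fn, hins, der_add, der_smul, hder, Pi.add_apply, Pi.smul_apply,
    smul_eq_mul, Pi.zero_apply]
  have e8 : op (hv P) (divh P)
      (fun S => if K + 1 = 1 ∧ g = 1 ∧ d = 0 then cst T (T.χ / 16 - strMuSq T / 4) S else 0) S =
      δ d * (if K + 1 = 1 ∧ g = 1 ∧ d = 0 then
        cst T (T.χ / 16 - strMuSq T / 4) S else 0) := by
    by_cases h : K + 1 = 1 ∧ g = 1 ∧ d = 0
    · simp only [if_pos h]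
      have e7 : (fun S => cst T (T.χ / 16 - strMuSq T / 4) S) =
        cst T (T.χ / 16 - strMuSq T / 4) := rfl
      rw [e7, op_cst, h.2.2, hδ0]
      ring
    · simp only [if_neg h]
      have := op_zero (v := hv P) (R := divh P) S
      have e7 : (fun _ => (0 : ℂ)) = (0 : T.Fn) := rfl
      rw [e7, this]
      ring
  rw [e8]
  by_cases h : g = 0 ∧ d = 0
  · simp only [if_pos h]
    have e9 := two_div hT hP K S
    have e10 : (fun S => two T (T.C ^ (K + 1) * T.η) S) = two T (T.C ^ (K + 1) * T.η) := rfl
    have e11 : (fun S => two T (P.H * T.η) S) = two T (P.H * T.η) := rfl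
    rw [e10, e11]
    have e12 : δ d = 0 := by rw [h.2, hδ0]
    rw [e12]
    linear_combination e9
  · simp only [if_neg h]
    have e9 : ins (shift T (K + 1)) (fun _ => (0 : ℂ)) S = 0 := ins_of_zero _ _ _ (fun x => rfl)
    have e10 : der (vir T (K + 1)) (fun _ => (0 : ℂ)) S = 0 := der_zero _ _
    have e11 : op (hv P) (divh P) (fun _ => (0 : ℂ)) S = 0 :=
      op_zero (v := hv P) (R := divh P) S
    rw [e9, e10, e11]
    ring

theorem z_divC (hT : IsTarget T) (hP : IsDivisor T P) {F : Corr T} (hF : IsGW T F)
    {δ : T.B → ℂ} (hδ0 : δ 0 = 0) (hδ : ∀ d d', δ (d + d') = δ d + δ d')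
    (hD : DivEq T P δ F) (K g : ℕ) (d : T.B) (S : List T.Ins) :
    ∑ b, P.H T.one b * z F K g d ((0, b) :: S) =
      δ d * z F K g d S + der (divh P) (z F K g d) S := by
  cases K with
  | zero =>
    rw [z_zero hF]
    have : der (divh P) (0 : T.Fn) S = 0 := der_zero _ _
    rw [this]
    simp
  | succ K =>
    have := z_divC_aux hT hP hF hδ0 hδ hD K g d S
    unfold op at this
    rw [ins_hv] at this
    linear_combination this


/-- The Virasoro constraints in genus `g` and class `d` follow from those with reduced insertions,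
order at most the virtual dimension and few insertions `τ_0` of the classes `A₁`, `A₂`. -/
theorem reductionS (hT : IsTarget T) {F : Corr T} (hF : IsGW T F)
    (h1 : ∀ a, T.p a + T.q a ≤ 1 → a = T.one) (A₁ B₁ A₂ B₂ : T.A → Prop)
    (h2 : ∀ a, T.p a + T.q a = 2 → A₁ a ∨ A₂ a ∨ ∃ (P : Divisor T) (δ : T.B → ℂ),
      IsDivisor T P ∧ (∀ b, P.H T.one b ≠ 0 ↔ b = a) ∧ δ 0 = 0 ∧
      (∀ d d', δ (d + d') = δ d + δ d') ∧ DivEq T P δ F)
    (hE₁ : Ext T F A₁ B₁) (hE₂ : Ext T F A₂ B₂) (g : ℕ) (d : T.B)
    (hred : ∀ (K : ℕ) (S : List T.Ins), 2 ≤ K → RedS A₁ A₂ S →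
      wt T.p S + ((K : ℤ) - 1) = vd T g d → wt T.q S + ((K : ℤ) - 1) = vd T g d →
      nA A₁ S ≤ nB B₁ S + 8 → nA A₂ S ≤ nB B₂ S + 8 →
      z F K g d S = 0) (K : ℕ) : z F K g d = 0 := by
  rcases K with _ | K
  · exact z_zero hF g d
  induction K with
  | zero => exact z_one hT hF g d
  | succ K ih =>
    have hpar : T.par (((0, T.one) : T.Ins).2) % 2 = 0 := by
      simp [Target.par, hT.p_one, hT.q_one]
    have hstr : ∀ S, z F (K + 1 + 1) g d ((0, T.one) :: S) =
        der (low T) (z F (K + 1 + 1) g d) S := by
      intro S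
      have := z_string hT hF (K + 1) g d S
      rw [ih] at this
      unfold str at this
      simp only [Pi.zero_apply, mul_zero] at this
      linear_combination this
    have main : ∀ n, ∀ S : List T.Ins, S.length = n → z F (K + 1 + 1) g d S = 0 := by
      intro n
      induction n using Nat.strong_induction_on with
      | _ n ihn =>
        intro S hS
        by_cases hmem : (0, T.one) ∈ S
        · obtain ⟨S₁, S₂, rfl⟩ := List.append_of_mem hmem
          rw [(z_ev hT hF _ g d).front hpar, hstr]
          apply der_len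
          intro S' hS'
          apply ihn S'.length _ S' rfl
          rw [hS', ← hS]
          simp only [List.length_append, List.length_cons]
          omega
        by_cases hmem1 : (1, T.one) ∈ S
        · obtain ⟨S₁, S₂, rfl⟩ := List.append_of_mem hmem1
          rw [(z_ev hT hF _ g d).front (x := (1, T.one)) hpar]
          have h3 := z_dil hT hF (K + 1 + 1) g d (S₁ ++ S₂)
          rw [dil_eq] at h3
          have h4 : z F (K + 1 + 1) g d (S₁ ++ S₂) = 0 := by
            apply ihn (S₁ ++ S₂).length _ _ rfl
            rw [← hS]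
            simp only [List.length_append, List.length_cons]
            omega
          rw [h4] at h3
          linear_combination h3
        by_cases hmem2 : ∃ a, (0, a) ∈ S ∧ T.p a + T.q a = 2 ∧ ¬ A₁ a ∧ ¬ A₂ a
        · obtain ⟨a, ha, hpa, hn1, hn2⟩ := hmem2
          obtain ⟨P, δ, hP, hH, hδ0, hδ, hD⟩ :=
            ((h2 a hpa).resolve_left hn1).resolve_left hn2
          have hHa : P.H T.one a ≠ 0 := (hH a).mpr rfl
          have hpara : T.par (((0, a) : T.Ins).2) % 2 = 0 := by
            simp [Target.par, hpa]
          obtain ⟨S₁, S₂, rfl⟩ := List.append_of_mem ha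
          rw [(z_ev hT hF _ g d).front hpara]
          have h3 := z_divC hT hP hF hδ0 hδ hD (K + 1 + 1) g d (S₁ ++ S₂)
          have hlen : (S₁ ++ S₂).length < n := by
            rw [← hS]
            simp only [List.length_append, List.length_cons]
            omega
          have h4 : z F (K + 1 + 1) g d (S₁ ++ S₂) = 0 := ihn _ hlen _ rfl
          have h5 : der (divh P) (z F (K + 1 + 1) g d) (S₁ ++ S₂) = 0 := by
            apply der_len
            intro S' hS'
            exact ihn S'.length (by rw [hS']; exact hlen) S' rfl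
          rw [h4, h5] at h3
          have h6 : ∑ b, P.H T.one b * z F (K + 1 + 1) g d ((0, b) :: (S₁ ++ S₂)) =
              P.H T.one a * z F (K + 1 + 1) g d ((0, a) :: (S₁ ++ S₂)) := by
            rw [Finset.sum_eq_single_of_mem a (by simp)]
            intro b _ hb
            have : P.H T.one b = 0 := by
              by_contra h0
              exact hb ((hH b).mp h0)
            rw [this, zero_mul]
          rw [h6] at h3
          have h7 : P.H T.one a * z F (K + 1 + 1) g d ((0, a) :: (S₁ ++ S₂)) = 0 := by
            linear_combination h3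
          exact (mul_eq_zero.mp h7).resolve_left hHa
        · have hR : RedS A₁ A₂ S := by
            intro s hs
            by_contra hlt
            rw [not_or] at hlt
            obtain ⟨hlt1, hlt2⟩ := hlt
            have h3 : s ≠ (0, T.one) := fun h => hmem (by rw [← h]; exact hs)
            have h4 : s ≠ (1, T.one) := fun h => hmem1 (by rw [← h]; exact hs)
            rcases Nat.lt_or_ge s.1 1 with h5 | h5
            · have h6 : s.1 = 0 := by omega
              by_cases h7 : T.p s.2 + T.q s.2 ≤ 1
              · exact h3 (Prod.ext h6 (h1 _ h7))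
              · apply hmem2
                have : ((0, s.2) : T.Ins) = s := Prod.ext h6.symm rfl
                refine ⟨s.2, by rw [this]; exact hs, by omega, fun h => hlt2 ⟨h6, Or.inl h⟩,
                  fun h => hlt2 ⟨h6, Or.inr h⟩⟩
            · have h6 : s.1 = 1 := by omega
              have h7 : T.p s.2 + T.q s.2 ≤ 1 := by omega
              exact h4 (Prod.ext h6 (h1 _ h7))
          by_cases hN1 : nB B₁ S + 9 ≤ nA A₁ S
          · exact z_van hF hE₁ _ _ _ _ hN1
          by_cases hN2 : nB B₂ S + 9 ≤ nA A₂ S
          · exact z_van hF hE₂ _ _ _ _ hN2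
          by_contra hne
          have w1 := z_wt hT hT.grp (fun g d => hF.dim_p g d) (K + 1 + 1) g d S hne
          have w2 := z_wt hT hT.grq (fun g d => hF.dim_q g d) (K + 1 + 1) g d S hne
          apply hne
          exact hred (K + 1 + 1) S (by omega) hR (by rw [w1]; push_cast; ring)
            (by rw [w2]; push_cast; ring) (by omega) (by omega)
    funext S
    exact main S.length S rfl

end Vale.Agent.P269.R2.H637
end
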