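import Vale.Agent.P269.R2.H637.Defs
import Vale.Agent.P269.R2.H284.Final

/-!
# P269: complete intersection surfaces

The target data of a complete intersection surface, with the curve classes in an arbitrary
commutative monoid with finite decompositions.
-/

noncomputable section

namespace Vale.Agent.P269.R2.H637

open Finset Vale.Agent.P269.R2.H284
open scoped Classical

variable {c : ℕ} {e : Fin c → ℕ} {V : Type} [Fintype V] {pV qV : V → ℕ} {ηV : Matrix V V ℂ}
  {M : Type} [AddCommMonoid M] [HasAntidiagonal M] {deg : M → ℕ}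

theorem surf_isTarget (he : ∀ j, 1 ≤ e j) (hV : IsPrimitive 2 e V pV qV ηV)
    (h0 : deg 0 = 0) (hadd : ∀ β γ, deg (β + γ) = deg β + deg γ) :
    IsTarget (surf e V pV qV ηV M deg) where
  p_one := (ci_isTarget he hV).p_one
  q_one := (ci_isTarget he hV).q_one
  C_type := (ci_isTarget he hV).C_type
  η_type := (ci_isTarget he hV).η_type
  η_symm := (ci_isTarget he hV).η_symm
  nondeg := (ci_isTarget he hV).nondeg
  C_adj := (ci_isTarget he hV).C_adj
  c1_zero := by
    show idx (2 + c) e * ((deg (0 : M) : ℕ) : ℤ) = 0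
    rw [h0]
    simp
  c1_add := by
    have key : ∀ β γ : M, idx (2 + c) e * ((deg (β + γ) : ℕ) : ℤ) =
        idx (2 + c) e * ((deg β : ℕ) : ℤ) + idx (2 + c) e * ((deg γ : ℕ) : ℤ) := by
      intro β γ
      rw [hadd]
      push_cast
      ring
    exact fun β γ => key β γ
  χ_eq := (ci_isTarget he hV).χ_eq
  libgoberWood := (ci_isTarget he hV).libgoberWood

theorem surf_C_eq (a b : (surf e V pV qV ηV M deg).A) :
    (surf e V pV qV ηV M deg).C a b =
      (idx (2 + c) e : ℂ) * (surfDiv e V pV qV ηV M deg).H a b :=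
  ci_C_eq (D := 2) (e := e) (pV := pV) (qV := qV) (ηV := ηV) a b

theorem surf_isGW {F : Corr (surf e V pV qV ηV M deg)}
    (h0 : IsGW0 (surf e V pV qV ηV M deg) F)
    (h1 : IsGWDiv (surf e V pV qV ηV M deg) (surfDiv e V pV qV ηV M deg) F) :
    IsGW (surf e V pV qV ηV M deg) F where
  toIsGW0 := h0
  divisor := by
    intro g d S
    have h2 := h1 g d S
    simp only [surf_C_eq, mul_assoc, ← Finset.mul_sum]
    rw [h2]
    have e1 : ∀ (G : (surf e V pV qV ηV M deg).Fn) S, der (divr (surf e V pV qV ηV M deg)) G S =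
        (idx (2 + c) e : ℂ) * der (divh (surfDiv e V pV qV ηV M deg)) G S := by
      intro G S
      rw [← der_smulR]
      congr 1
      funext s
      unfold divr divh
      split_ifs
      · simp
      · rw [Finset.smul_sum]
        apply Finset.sum_congr rfl
        intro b _
        rw [surf_C_eq, Finsupp.smul_single, smul_eq_mul]
    have e2 : (surf e V pV qV ηV M deg).C * (surf e V pV qV ηV M deg).η =
        (idx (2 + c) e : ℂ) • ((surfDiv e V pV qV ηV M deg).H *
          (surf e V pV qV ηV M deg).η) := by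
      ext a b
      rw [Matrix.smul_apply, Matrix.mul_apply, Matrix.mul_apply, smul_eq_mul, Finset.mul_sum]
      apply Finset.sum_congr rfl
      intro x _
      rw [surf_C_eq]; ring
    have e3 : ∀ (r : ℂ) (N : Matrix (surf e V pV qV ηV M deg).A
        (surf e V pV qV ηV M deg).A ℂ) S,
        two (surf e V pV qV ηV M deg) (r • N) S = r * two (surf e V pV qV ηV M deg) N S := by
      intro r N S
      match S with
      | [] => simp [two_nil]
      | [s] => simp [two_sing]
      | [s, t] =>
        rw [two_pair, two_pair]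
        split_ifs <;> simp
      | s :: t :: u :: S => simp [two_long]
    have e4 : (((surf e V pV qV ηV M deg).c1 d : ℤ) : ℂ) =
        (idx (2 + c) e : ℂ) * (((surfDiv e V pV qV ηV M deg).deg d : ℤ) : ℂ) := by
      have : ∀ n : ℤ, ((idx (2 + c) e * n : ℤ) : ℂ) = (idx (2 + c) e : ℂ) * (n : ℂ) := by
        intro n
        push_cast
        ring
      exact this _
    have e5 : ∀ (r κ : ℂ) S, cst (surf e V pV qV ηV M deg) (r * κ) S =
        r * cst (surf e V pV qV ηV M deg) κ S := by
      intro r κ S
      cases S with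
      | nil => rfl
      | cons s S => simp [cst]
    have e6 : -((surf e V pV qV ηV M deg).c1cD / 24) =
        (idx (2 + c) e : ℂ) * (-((surfDiv e V pV qV ηV M deg).hc / 24)) := by
      show -((idx (2 + c) e : ℂ) * (∏ k, (e k : ℂ)) *
        PowerSeries.coeff (2 - 1) (chern (2 + c) e) / 24) = (idx (2 + c) e : ℂ) *
          (-((∏ k, (e k : ℂ)) * PowerSeries.coeff (2 - 1) (chern (2 + c) e) / 24))
      ring
    rw [e1, e2, e4, e6, e5, e3]
    split_ifs <;> ring

theorem surf_cond (hV : IsPrimitive 2 e V pV qV ηV) (a : (surf e V pV qV ηV M deg).A)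
    (h : (surf e V pV qV ηV M deg).p a + (surf e V pV qV ηV M deg).q a ≤ 1) :
    a = (surf e V pV qV ηV M deg).one := by
  rcases a with i | v
  · have h' : (i : ℕ) + i ≤ 1 := h
    have : i = 0 := by
      ext
      simp only [Fin.val_zero]
      omega
    rw [this]
    rfl
  · have h' : pV v + qV v ≤ 1 := h
    have := hV.type v
    omega

end Vale.Agent.P269.R2.H637
end
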