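import Vale.Agent.P269.R2.H637.Surf
import Vale.Agent.P269.R2.H637.DivD

/-!
# P269: complete intersection surfaces, the divisor classes and the finite reduction
-/

noncomputable section

namespace Vale.Agent.P269.R2.H637

open Finset Vale.Agent.P269.R2.H284
open scoped Classical

variable {c : ℕ} {e : Fin c → ℕ} {V : Type} [Fintype V] {pV qV : V → ℕ} {ηV : Matrix V V ℂ}
  {M : Type} [AddCommMonoid M] [HasAntidiagonal M] {deg : M → ℕ} {per : V → M → ℂ}

/-! ### the divisor classes -/

theorem prim_inl_inl (v : V) (i j : Fin (2 + 1)) :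
    (primDiv e V pV qV ηV M deg v).H (Sum.inl i : Fin (2 + 1) ⊕ V)
      (Sum.inl j : Fin (2 + 1) ⊕ V) = 0 := rfl

theorem prim_inl_inr (v : V) (i : Fin (2 + 1)) (w : V) :
    (primDiv e V pV qV ηV M deg v).H (Sum.inl i : Fin (2 + 1) ⊕ V)
      (Sum.inr w : Fin (2 + 1) ⊕ V) = if (i : ℕ) = 0 ∧ w = v then (1 : ℂ) else 0 := rfl

theorem prim_inr_inl (v w : V) (i : Fin (2 + 1)) :
    (primDiv e V pV qV ηV M deg v).H (Sum.inr w : Fin (2 + 1) ⊕ V)
      (Sum.inl i : Fin (2 + 1) ⊕ V) = if (i : ℕ) = 2 then ηV v w / ∏ k, (e k : ℂ) else 0 := rfl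

theorem prim_inr_inr (v w u : V) :
    (primDiv e V pV qV ηV M deg v).H (Sum.inr w : Fin (2 + 1) ⊕ V)
      (Sum.inr u : Fin (2 + 1) ⊕ V) = 0 := rfl

theorem prim_one (v : V) (b : (surf e V pV qV ηV M deg).A) :
    (primDiv e V pV qV ηV M deg v).H (surf e V pV qV ηV M deg).one b ≠ 0 ↔
      b = (Sum.inr v : Fin (2 + 1) ⊕ V) := by
  rcases b with j | w
  · constructor
    · intro h
      exact absurd (prim_inl_inl (e := e) (pV := pV) (qV := qV) (ηV := ηV) (M := M) (deg := deg)
        v 0 j) h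
    · intro h
      exact absurd h (by simp)
  · have h1 : (primDiv e V pV qV ηV M deg v).H (surf e V pV qV ηV M deg).one
        (Sum.inr w : Fin (2 + 1) ⊕ V) = if ((0 : Fin (2 + 1)) : ℕ) = 0 ∧ w = v then (1 : ℂ)
          else 0 := rfl
    constructor
    · intro h
      have h2 : w = v := by
        by_contra h3
        apply h
        exact h1.trans (if_neg (fun h4 => h3 h4.2))
      rw [h2]
    · intro h
      have h2 : w = v := Sum.inr.inj h
      intro h3
      rw [show (primDiv e V pV qV ηV M deg v).H (surf e V pV qV ηV M deg).one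
        (Sum.inr w : Fin (2 + 1) ⊕ V) = 1 from h1.trans (if_pos ⟨rfl, h2⟩)] at h3
      exact one_ne_zero h3

theorem prim_supp (hV : IsPrimitive 2 e V pV qV ηV) (v : V)
    (x y : (surf e V pV qV ηV M deg).A) (h : (primDiv e V pV qV ηV M deg v).H x y ≠ 0) :
    (x = (Sum.inl 0 : Fin (2 + 1) ⊕ V) ∧ y = (Sum.inr v : Fin (2 + 1) ⊕ V)) ∨
    (∃ w, x = (Sum.inr w : Fin (2 + 1) ⊕ V) ∧ y = (Sum.inl 2 : Fin (2 + 1) ⊕ V) ∧
      pV v + pV w = 2 ∧ qV v + qV w = 2) := by
  rcases x with i | w <;> rcases y with j | u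
  · exact absurd rfl h
  · left
    have h1 : (if (i : ℕ) = 0 ∧ u = v then (1 : ℂ) else 0) ≠ 0 := h
    have h2 : (i : ℕ) = 0 ∧ u = v := by
      by_contra h3
      exact h1 (if_neg h3)
    refine ⟨?_, by rw [h2.2]⟩
    congr 1
    ext
    simpa using h2.1
  · right
    have h1 : (if (j : ℕ) = 2 then ηV v w / ∏ k, (e k : ℂ) else 0) ≠ 0 := h
    have h2 : (j : ℕ) = 2 := by
      by_contra h3
      exact h1 (if_neg h3)
    rw [if_pos h2] at h1
    have h3 : ηV v w ≠ 0 := by
      intro h4
      apply h1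
      rw [h4, zero_div]
    have h4 := hV.pair v w h3
    have h5 := hV.type v
    have h6 := hV.type w
    refine ⟨w, rfl, ?_, h4, by omega⟩
    congr 1
    ext
    simpa using h2
  · exact absurd rfl h

theorem prim_isDivisor (he : ∀ j, 1 ≤ e j) (hV : IsPrimitive 2 e V pV qV ηV) (v : V)
    (hv : pV v = 1 ∧ qV v = 1) :
    IsDivisor (surf e V pV qV ηV M deg) (primDiv e V pV qV ηV M deg v) where
  H_type := by
    intro x y h
    rcases prim_supp hV v x y h with ⟨rfl, rfl⟩ | ⟨w, rfl, rfl, h1, h2⟩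
    · exact ⟨hv.1, hv.2⟩
    · refine ⟨?_, ?_⟩
      · show 2 = pV w + 1
        omega
      · show 2 = qV w + 1
        omega
  H_adj := by
    have hd : (∏ k, (e k : ℂ)) ≠ 0 := by
      rw [Finset.prod_ne_zero_iff]
      intro j _
      have := he j
      exact_mod_cast (by omega : e j ≠ 0)
    show Matrix.fromBlocks 0
      (Matrix.of fun (i : Fin (2 + 1)) (w : V) => if (i : ℕ) = 0 ∧ w = v then (1 : ℂ) else 0)
      (Matrix.of fun (w : V) (i : Fin (2 + 1)) =>
        if (i : ℕ) = 2 then ηV v w / ∏ k, (e k : ℂ) else 0) 0 *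
      Matrix.fromBlocks (Matrix.of fun i j : Fin (2 + 1) =>
        if (i : ℕ) + j = 2 then ∏ k, (e k : ℂ) else 0) 0 0 ηV =
      Matrix.fromBlocks (Matrix.of fun i j : Fin (2 + 1) =>
        if (i : ℕ) + j = 2 then ∏ k, (e k : ℂ) else 0) 0 0 ηV *
      (Matrix.fromBlocks 0
        (Matrix.of fun (i : Fin (2 + 1)) (w : V) => if (i : ℕ) = 0 ∧ w = v then (1 : ℂ) else 0)
        (Matrix.of fun (w : V) (i : Fin (2 + 1)) =>
          if (i : ℕ) = 2 then ηV v w / ∏ k, (e k : ℂ) else 0) 0).transpose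
    rw [Matrix.fromBlocks_transpose, Matrix.fromBlocks_multiply, Matrix.fromBlocks_multiply]
    simp only [Matrix.transpose_zero, Matrix.mul_zero, Matrix.zero_mul, add_zero, zero_add]
    congr 1
    · ext i w
      rw [Matrix.mul_apply, Matrix.mul_apply]
      simp only [Matrix.of_apply, Matrix.transpose_apply]
      rw [Finset.sum_eq_single v, Finset.sum_eq_single (2 : Fin (2 + 1))]
      · by_cases hi : (i : ℕ) = 0
        · rw [if_pos ⟨hi, rfl⟩, if_pos (by simp [hi]), if_pos (by simp)]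
          field_simp
        · rw [if_neg (fun h => hi h.1), if_neg (by
            intro h
            have : ((2 : Fin (2 + 1)) : ℕ) = 2 := rfl
            omega)]
          ring
      · intro j _ hj
        rw [if_neg (c := (j : ℕ) = 2) (fun h => hj (Fin.ext h)), mul_zero]
      · intro h; exact absurd (Finset.mem_univ _) h
      · intro u _ hu
        rw [if_neg (fun h => hu h.2), zero_mul]
      · intro h; exact absurd (Finset.mem_univ _) h
    · ext w i
      rw [Matrix.mul_apply, Matrix.mul_apply]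
      simp only [Matrix.of_apply, Matrix.transpose_apply]
      rw [Finset.sum_eq_single (2 : Fin (2 + 1)), Finset.sum_eq_single v]
      · have hs : ηV v w = ηV w v := by
          have := hV.symm v w
          simpa using this
        by_cases hi : (i : ℕ) = 0
        · rw [if_pos (c := (i : ℕ) = 0 ∧ v = v) ⟨hi, rfl⟩, if_pos (by simp), if_pos (by simp [hi]),
            hs]
          field_simp
        · rw [if_neg (c := (i : ℕ) = 0 ∧ v = v) (fun h => hi h.1),
            if_neg (c := ((2 : Fin (2 + 1)) : ℕ) + (i : ℕ) = 2) (by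
            intro h
            have : ((2 : Fin (2 + 1)) : ℕ) = 2 := rfl
            omega)]
          ring
      · intro u _ hu
        rw [if_neg (fun h => hu h.2), mul_zero]
      · intro h; exact absurd (Finset.mem_univ _) h
      · intro j _ hj
        rw [if_neg (c := (j : ℕ) = 2) (fun h => hj (Fin.ext h)), zero_mul]
      · intro h; exact absurd (Finset.mem_univ _) h
  H_comm := by
    show Matrix.fromBlocks 0
      (Matrix.of fun (i : Fin (2 + 1)) (w : V) => if (i : ℕ) = 0 ∧ w = v then (1 : ℂ) else 0)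
      (Matrix.of fun (w : V) (i : Fin (2 + 1)) =>
        if (i : ℕ) = 2 then ηV v w / ∏ k, (e k : ℂ) else 0) 0 *
      Matrix.fromBlocks (Matrix.of fun i j : Fin (2 + 1) =>
        if (j : ℕ) = i + 1 then (idx (2 + c) e : ℂ) else 0) 0 0 (0 : Matrix V V ℂ) =
      Matrix.fromBlocks (Matrix.of fun i j : Fin (2 + 1) =>
        if (j : ℕ) = i + 1 then (idx (2 + c) e : ℂ) else 0) 0 0 (0 : Matrix V V ℂ) *
      Matrix.fromBlocks 0
        (Matrix.of fun (i : Fin (2 + 1)) (w : V) => if (i : ℕ) = 0 ∧ w = v then (1 : ℂ) else 0)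
        (Matrix.of fun (w : V) (i : Fin (2 + 1)) =>
          if (i : ℕ) = 2 then ηV v w / ∏ k, (e k : ℂ) else 0) 0
    rw [Matrix.fromBlocks_multiply, Matrix.fromBlocks_multiply]
    simp only [Matrix.mul_zero, Matrix.zero_mul, add_zero, zero_add]
    congr 1
    · ext i w
      rw [Matrix.mul_apply]
      simp only [Matrix.of_apply, Matrix.zero_apply]
      symm
      apply Finset.sum_eq_zero
      intro j _
      by_cases h : (j : ℕ) = 0
      · rw [if_neg (c := (j : ℕ) = i + 1) (by omega), zero_mul]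
      · rw [if_neg (c := (j : ℕ) = 0 ∧ w = v) (fun h' => h h'.1), mul_zero]
    · ext w i
      rw [Matrix.mul_apply]
      simp only [Matrix.of_apply, Matrix.zero_apply]
      apply Finset.sum_eq_zero
      intro j _
      by_cases h : (j : ℕ) = 2
      · rw [if_neg (c := (i : ℕ) = j + 1) (by omega), mul_zero]
      · rw [if_neg (c := (j : ℕ) = 2) h, zero_mul]
  deg_zero := rfl
  deg_add := fun _ _ => rfl

theorem surf_isDivisor (h0 : deg 0 = 0) (hadd : ∀ β γ, deg (β + γ) = deg β + deg γ) :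
    IsDivisor (surf e V pV qV ηV M deg) (surfDiv e V pV qV ηV M deg) where
  H_type := (ci_isDivisor (D := 2) (e := e) (pV := pV) (qV := qV) (ηV := ηV)).H_type
  H_adj := (ci_isDivisor (D := 2) (e := e) (pV := pV) (qV := qV) (ηV := ηV)).H_adj
  H_comm := (ci_isDivisor (D := 2) (e := e) (pV := pV) (qV := qV) (ηV := ηV)).H_comm
  deg_zero := by
    show ((deg (0 : M) : ℕ) : ℤ) = 0
    rw [h0]
    rfl
  deg_add := by
    have key : ∀ β γ : M, ((deg (β + γ) : ℕ) : ℤ) = ((deg β : ℕ) : ℤ) + ((deg γ : ℕ) : ℤ) := by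
      intro β γ
      rw [hadd]
      push_cast
      ring
    exact fun β γ => key β γ

theorem surf_one (b : (surf e V pV qV ηV M deg).A) :
    (surfDiv e V pV qV ηV M deg).H (surf e V pV qV ηV M deg).one b ≠ 0 ↔
      b = (Sum.inl 1 : Fin (2 + 1) ⊕ V) := by
  rcases b with j | w
  · show (if (j : ℕ) = ((0 : Fin (2 + 1)) : ℕ) + 1 then (1 : ℂ) else 0) ≠ 0 ↔
      (Sum.inl j : Fin (2 + 1) ⊕ V) = Sum.inl 1
    constructor
    · intro h1
      have h2 : (j : ℕ) = 1 := by
        by_contra h3
        rw [if_neg (by simpa using h3)] at h1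
        exact h1 rfl
      congr 1
      ext
      simpa using h2
    · intro h1
      have h2 : j = 1 := Sum.inl.inj h1
      rw [h2]
      simp
  · show (0 : ℂ) ≠ 0 ↔ (Sum.inr w : Fin (2 + 1) ⊕ V) = Sum.inl 1
    simp

theorem ext_twoZero (hV : IsPrimitive 2 e V pV qV ηV) (hper : IsPeriods pV per)
    {F : Corr (surf e V pV qV ηV M deg)} (hF : IsSurfGW e V pV qV ηV M deg per F) :
    Ext (surf e V pV qV ηV M deg) F (TwoZero _) (fun a => (surf e V pV qV ηV M deg).p a = 0) := by
  intro a ha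
  rcases a with i | v
  · exfalso
    have h1 : (i : ℕ) = 2 := ha.1
    have h2 : (i : ℕ) = 0 := ha.2
    omega
  · have h1 : pV v = 2 := ha.1
    have h2 : qV v = 0 := ha.2
    refine ⟨?_, primDiv e V pV qV ηV M deg v, prim_one v, ?_, ?_⟩
    · show (pV v + qV v) % 2 = 0
      rw [h1, h2]
    · intro x y h
      rcases prim_supp hV v x y h with ⟨rfl, rfl⟩ | ⟨w, rfl, rfl, h3, h4⟩
      · refine ⟨rfl, ?_⟩
        show ¬ pV v = 0
        omega
      · refine ⟨?_, ?_⟩
        · show pV w = 0
          omega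
        · show ¬ (2 = 0)
          omega
    · have h3 : per v = fun _ => 0 := by
        funext β
        exact hper.type v β (by omega)
      have h4 := hF.divp v
      rw [h3] at h4
      exact h4

theorem ext_zeroTwo (hV : IsPrimitive 2 e V pV qV ηV) (hper : IsPeriods pV per)
    {F : Corr (surf e V pV qV ηV M deg)} (hF : IsSurfGW e V pV qV ηV M deg per F) :
    Ext (surf e V pV qV ηV M deg) F (ZeroTwo _) (fun a => (surf e V pV qV ηV M deg).q a = 0) := by
  intro a ha
  rcases a with i | v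
  · exfalso
    have h1 : (i : ℕ) = 0 := ha.1
    have h2 : (i : ℕ) = 2 := ha.2
    omega
  · have h1 : pV v = 0 := ha.1
    have h2 : qV v = 2 := ha.2
    refine ⟨?_, primDiv e V pV qV ηV M deg v, prim_one v, ?_, ?_⟩
    · show (pV v + qV v) % 2 = 0
      rw [h1, h2]
    · intro x y h
      rcases prim_supp hV v x y h with ⟨rfl, rfl⟩ | ⟨w, rfl, rfl, h3, h4⟩
      · refine ⟨rfl, ?_⟩
        show ¬ qV v = 0
        omega
      · refine ⟨?_, ?_⟩
        · show qV w = 0
          omega
        · show ¬ (2 = 0)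
          omega
    · have h3 : per v = fun _ => 0 := by
        funext β
        exact hper.type v β (by omega)
      have h4 := hF.divp v
      rw [h3] at h4
      exact h4

theorem surf_deg_two (he : ∀ j, 1 ≤ e j) (hV : IsPrimitive 2 e V pV qV ηV)
    (hper : IsPeriods pV per) (h0 : deg 0 = 0) (hadd : ∀ β γ, deg (β + γ) = deg β + deg γ)
    {F : Corr (surf e V pV qV ηV M deg)} (hF : IsSurfGW e V pV qV ηV M deg per F)
    (a : (surf e V pV qV ηV M deg).A)
    (ha : (surf e V pV qV ηV M deg).p a + (surf e V pV qV ηV M deg).q a = 2) :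
    TwoZero _ a ∨ ZeroTwo _ a ∨ ∃ (P : Divisor (surf e V pV qV ηV M deg))
      (δ : (surf e V pV qV ηV M deg).B → ℂ),
      IsDivisor (surf e V pV qV ηV M deg) P ∧
      (∀ b, P.H (surf e V pV qV ηV M deg).one b ≠ 0 ↔ b = a) ∧ δ 0 = 0 ∧
      (∀ d d', δ (d + d') = δ d + δ d') ∧ DivEq (surf e V pV qV ηV M deg) P δ F := by
  rcases a with i | v
  · right
    right
    have h1 : (i : ℕ) + i = 2 := ha
    have h2 : i = 1 := by
      ext
      have : ((1 : Fin (2 + 1)) : ℕ) = 1 := rfl
      omega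
    rw [h2]
    have hP := surf_isDivisor (e := e) (pV := pV) (qV := qV) (ηV := ηV) h0 hadd
    refine ⟨surfDiv e V pV qV ηV M deg, fun d => ((surfDiv e V pV qV ηV M deg).deg d : ℂ), hP,
      surf_one, ?_, ?_, hF.divh⟩
    · show (((surfDiv e V pV qV ηV M deg).deg 0 : ℤ) : ℂ) = 0
      rw [hP.deg_zero]
      simp
    · intro d d'
      show (((surfDiv e V pV qV ηV M deg).deg (d + d') : ℤ) : ℂ) =
        (((surfDiv e V pV qV ηV M deg).deg d : ℤ) : ℂ) +
          (((surfDiv e V pV qV ηV M deg).deg d' : ℤ) : ℂ)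
      rw [hP.deg_add]
      push_cast
      ring
  · have h1 : pV v + qV v = 2 := ha
    by_cases h2 : pV v = 2
    · exact Or.inl ⟨h2, by show qV v = 0; omega⟩
    by_cases h3 : pV v = 0
    · exact Or.inr (Or.inl ⟨h3, by show qV v = 2; omega⟩)
    · right
      right
      exact ⟨primDiv e V pV qV ηV M deg v, per v,
        prim_isDivisor he hV v ⟨by omega, by omega⟩, prim_one v, hper.zero v,
        fun d d' => hper.add v d d', hF.divp v⟩

end Vale.Agent.P269.R2.H637
end
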