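import Vale.Agent.P269.R2.H637.SurfB

/-!
# P269: complete intersection surfaces, finiteness of the set of reduced constraints
-/

noncomputable section

namespace Vale.Agent.P269.R2.H637

open Finset Vale.Agent.P269.R2.H284
open scoped Classical

/-- `2 m + p + q - 2` summed over the insertions `τ_m(φ)` -/
def wsum (T : Target) (S : List T.Ins) : ℤ :=
  (S.map fun s => 2 * (s.1 : ℤ) + T.p s.2 + T.q s.2 - 2).sum

section
variable {T : Target} {A₁ A₂ : T.A → Prop}

theorem wsum_cons (s : T.Ins) (S : List T.Ins) :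
    wsum T (s :: S) = (2 * (s.1 : ℤ) + T.p s.2 + T.q s.2 - 2) + wsum T S := by
  simp [wsum]

theorem wsum_eq (S : List T.Ins) : wsum T S = wt T.p S + wt T.q S := by
  induction S with
  | nil => simp [wsum, wt]
  | cons s S ih =>
    rw [wsum_cons, wt_cons, wt_cons, ih]
    push_cast
    ring

theorem redS_head (hA : ∀ a, A₁ a ∨ A₂ a → T.p a + T.q a = 2) {s : T.Ins} {S : List T.Ins}
    (h : RedS A₁ A₂ (s :: S)) :
    (1 ≤ 2 * (s.1 : ℤ) + T.p s.2 + T.q s.2 - 2) ∨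
      (2 * (s.1 : ℤ) + T.p s.2 + T.q s.2 - 2 = 0 ∧ s.1 = 0 ∧ (A₁ s.2 ∨ A₂ s.2)) := by
  rcases h s List.mem_cons_self with h1 | ⟨h1, h2⟩
  · left
    omega
  · right
    have := hA _ h2
    exact ⟨by omega, h1, h2⟩

theorem redS_bounds (hA : ∀ a, A₁ a ∨ A₂ a → T.p a + T.q a = 2) (B : T.A → Prop)
    (S : List T.Ins) (h : RedS A₁ A₂ S) :
    0 ≤ wsum T S ∧ (nB B S : ℤ) ≤ wsum T S ∧
      (S.length : ℤ) ≤ wsum T S + nA A₁ S + nA A₂ S ∧
      ∀ s ∈ S, 2 * (s.1 : ℤ) - 2 ≤ wsum T S := by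
  induction S with
  | nil => simp [wsum, nB, nA]
  | cons s S ih =>
    obtain ⟨i1, i2, i3, i4⟩ := ih fun t ht => h t (List.mem_cons_of_mem _ ht)
    have h1 := redS_head hA h
    rw [wsum_cons]
    simp only [nA, nB, List.length_cons]
    refine ⟨?_, ?_, ?_, ?_⟩
    · rcases h1 with h1 | ⟨h1, _, _⟩ <;> omega
    · rcases h1 with h1 | ⟨h1, h2, _⟩
      · push_cast
        split_ifs <;> omega
      · rw [if_neg (fun h' => h'.1 h2)]
        push_cast
        omega
    · rcases h1 with h1 | ⟨h1, h2, h3⟩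
      · push_cast
        split_ifs <;> omega
      · rcases h3 with h3 | h3
        · rw [if_pos (c := s.1 = 0 ∧ A₁ s.2) ⟨h2, h3⟩]
          push_cast
          split_ifs <;> omega
        · rw [if_pos (c := s.1 = 0 ∧ A₂ s.2) ⟨h2, h3⟩]
          push_cast
          split_ifs <;> omega
    · intro t ht
      rcases List.mem_cons.mp ht with rfl | ht
      · omega
      · have := i4 t ht
        rcases h1 with h1 | ⟨h1, _, _⟩ <;> omega

theorem finite_redS (hA : ∀ a, A₁ a ∨ A₂ a → T.p a + T.q a = 2) (B₁ B₂ : T.A → Prop) (n : ℕ) :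
    {S : List T.Ins | RedS A₁ A₂ S ∧ wsum T S ≤ n ∧ nA A₁ S ≤ nB B₁ S + 8 ∧
      nA A₂ S ≤ nB B₂ S + 8}.Finite := by
  have h1 : ({s : T.Ins | s.1 ≤ n + 2} : Set T.Ins).Finite := by
    have : ({s : T.Ins | s.1 ≤ n + 2} : Set T.Ins) = (Set.Iic (n + 2)) ×ˢ (Set.univ : Set T.A) := by
      ext s
      simp
    rw [this]
    exact (Set.finite_Iic _).prod Set.finite_univ
  have h3 : ({S : List T.Ins | S.length ≤ 3 * n + 16 ∧ ∀ s ∈ S, s ∈ {s : T.Ins | s.1 ≤ n + 2}} :
      Set (List T.Ins)).Finite := by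
    have h4 := h1.fintype
    have h5 := List.finite_length_le (α := {s : T.Ins | s.1 ≤ n + 2}) (n := 3 * n + 16)
    refine (h5.image (List.map Subtype.val)).subset ?_
    rintro S ⟨hl, hm⟩
    refine ⟨S.attach.map fun s => ⟨s.1, hm s.1 s.2⟩, ?_, ?_⟩
    · show (List.map _ S.attach).length ≤ 3 * n + 16
      rw [List.length_map, List.length_attach]
      exact hl
    · rw [List.map_map]
      exact List.attach_map_subtype_val S
  refine h3.subset ?_
  rintro S ⟨hR, hw, ha1, ha2⟩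
  obtain ⟨b1, b2, b3, b4⟩ := redS_bounds hA B₁ S hR
  obtain ⟨_, c2, _, _⟩ := redS_bounds hA B₂ S hR
  refine ⟨by omega, ?_⟩
  intro s hs
  have := b4 s hs
  show s.1 ≤ n + 2
  omega

end

variable {c : ℕ} {e : Fin c → ℕ} {V : Type} [Fintype V] {pV qV : V → ℕ} {ηV : Matrix V V ℂ}
  {M : Type} [AddCommMonoid M] [HasAntidiagonal M] {deg : M → ℕ} {per : V → M → ℂ}

theorem types_two (a : (surf e V pV qV ηV M deg).A) (h : TwoZero _ a ∨ ZeroTwo _ a) :
    (surf e V pV qV ηV M deg).p a + (surf e V pV qV ηV M deg).q a = 2 := by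
  rcases h with h | h
  · rw [h.1, h.2]
  · rw [h.1, h.2]

theorem redSet_bound {g : ℕ} {β : M} {x : ℕ × List (surf e V pV qV ηV M deg).Ins}
    (hx : x ∈ redSet e V pV qV ηV M deg g β) :
    0 < (g : ℤ) - 1 + idx (2 + c) e * deg β := by
  obtain ⟨h1, h2, h3, h4, _, _⟩ := hx
  obtain ⟨b1, _, _, _⟩ := redS_bounds (fun a h => types_two a h) (fun _ => True) x.2 h2
  rw [wsum_eq] at b1
  change wt _ x.2 + _ = _ at h3
  change wt _ x.2 + _ = _ at h4
  omega

theorem redSet_finite (g : ℕ) (β : M) : (redSet e V pV qV ηV M deg g β).Finite := by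
  obtain ⟨n, hn⟩ : ∃ n : ℕ, 2 * ((g : ℤ) - 1 + idx (2 + c) e * deg β) + 2 ≤ n :=
    ⟨_, Int.self_le_toNat _⟩
  refine ((Set.finite_Iic n).prod (finite_redS (T := surf e V pV qV ηV M deg)
    (A₁ := TwoZero _) (A₂ := ZeroTwo _) (fun a h => types_two a h)
    (fun a => (surf e V pV qV ηV M deg).p a = 0)
    (fun a => (surf e V pV qV ηV M deg).q a = 0) n)).subset ?_
  rintro ⟨K, S⟩ ⟨hK, hR, hs, hs', ha1, ha2⟩
  simp only at hK hR hs hs' ha1 ha2
  obtain ⟨b1, _, _, _⟩ := redS_bounds (fun a h => types_two a h) (fun _ => True) S hR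
  rw [wsum_eq] at b1
  change wt _ S + _ = _ at hs
  change wt _ S + _ = _ at hs'
  refine ⟨?_, hR, ?_, ha1, ha2⟩
  · show K ≤ n
    omega
  · show wsum (surf e V pV qV ηV M deg) S ≤ n
    rw [wsum_eq]
    omega

theorem redSet_reduction (he : ∀ j, 1 ≤ e j) (hV : IsPrimitive 2 e V pV qV ηV)
    (hper : IsPeriods pV per) (h0 : deg 0 = 0) (hadd : ∀ β γ, deg (β + γ) = deg β + deg γ)
    {F : Corr (surf e V pV qV ηV M deg)} (hF : IsSurfGW e V pV qV ηV M deg per F)
    (g : ℕ) (β : M) (h : ∀ x ∈ redSet e V pV qV ηV M deg g β, z F x.1 g β x.2 = 0)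
    (K : ℕ) (S : List (surf e V pV qV ηV M deg).Ins) : z F K g β S = 0 := by
  rw [reductionS (surf_isTarget he hV h0 hadd) (surf_isGW hF.gw hF.divh) (surf_cond hV)
    (TwoZero _) (fun a => (surf e V pV qV ηV M deg).p a = 0) (ZeroTwo _)
    (fun a => (surf e V pV qV ηV M deg).q a = 0)
    (surf_deg_two he hV hper h0 hadd hF) (ext_twoZero hV hper hF) (ext_zeroTwo hV hper hF) g β
    ?_ K]
  · rfl
  · intro K S hK hR hs hs' ha1 ha2
    apply h (K, S)
    have hv : vd (surf e V pV qV ηV M deg) g β = (g : ℤ) - 1 + idx (2 + c) e * deg β := by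
      show (((2 : ℕ) : ℤ) - 3) * (1 - g) + idx (2 + c) e * (deg β : ℤ) =
        (g : ℤ) - 1 + idx (2 + c) e * deg β
      push_cast
      ring
    rw [hv] at hs hs'
    exact ⟨hK, hR, hs, hs', ha1, ha2⟩

end Vale.Agent.P269.R2.H637
end
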