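import Vale.Agent.P269.R2.H637.Defs
import Vale.Agent.P269.R2.H284.Final

/-!
# P269: vanishing of correlators with many insertions `τ_0(ω)` of one extreme Hodge type
-/

noncomputable section

namespace Vale.Agent.P269.R2.H637

open Finset Vale.Agent.P269.R2.H284
open scoped Classical

variable {T : Target}

theorem nA_append (A0 : T.A → Prop) (S₁ S₂ : List T.Ins) :
    nA A0 (S₁ ++ S₂) = nA A0 S₁ + nA A0 S₂ := by
  induction S₁ with
  | nil => simp [nA]
  | cons s S ih => simp only [List.cons_append, nA, ih]; omega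

theorem nB_append (B0 : T.A → Prop) (S₁ S₂ : List T.Ins) :
    nB B0 (S₁ ++ S₂) = nB B0 S₁ + nB B0 S₂ := by
  induction S₁ with
  | nil => simp [nB]
  | cons s S ih => simp only [List.cons_append, nB, ih]; omega

theorem nA_le (A0 : T.A → Prop) (S : List T.Ins) : nA A0 S ≤ S.length := by
  induction S with
  | nil => simp [nA]
  | cons s S ih =>
    simp only [nA, List.length_cons]
    split_ifs <;> omega

theorem nA_pos {A0 : T.A → Prop} {S : List T.Ins} (h : 0 < nA A0 S) :
    ∃ a, (0, a) ∈ S ∧ A0 a := by
  induction S with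
  | nil => simp [nA] at h
  | cons s S ih =>
    by_cases hs : s.1 = 0 ∧ A0 s.2
    · refine ⟨s.2, ?_, hs.2⟩
      have : ((0, s.2) : T.Ins) = s := Prod.ext hs.1.symm rfl
      rw [this]
      exact List.mem_cons_self
    · simp only [nA, if_neg hs, zero_add] at h
      obtain ⟨a, ha, hA⟩ := ih h
      exact ⟨a, List.mem_cons_of_mem _ ha, hA⟩

/-- `der` vanishes if all its terms vanish -/
theorem der_van (R : T.Ins → (T.Ins →₀ ℂ)) (G : T.Fn) (S : List T.Ins)
    (h : ∀ S₁ s S₂, S = S₁ ++ s :: S₂ → ∀ x, R s x ≠ 0 → G (S₁ ++ x :: S₂) = 0) :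
    der R G S = 0 := by
  induction S generalizing G with
  | nil => rfl
  | cons s S ih =>
    rw [der_cons]
    have h1 : ins (R s) G S = 0 := by
      unfold ins
      rw [Finsupp.sum]
      apply Finset.sum_eq_zero
      intro x hx
      have := h [] s S rfl x (by simpa using hx)
      simp only [List.nil_append] at this
      rw [this, mul_zero]
    rw [h1, zero_add]
    apply ih
    intro S₁ t S₂ hS x hx
    have := h (s :: S₁) t S₂ (by rw [hS]; rfl) x hx
    exact this

/-- Vanishing of a function of lists with many insertions `A0`. -/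
def Van (A0 B0 : T.A → Prop) (c : ℤ) (G : T.Fn) : Prop :=
  ∀ S, (nB B0 S : ℤ) + c ≤ nA A0 S → G S = 0

theorem Van.cons {A0 B0 : T.A → Prop} {c : ℤ} {G : T.Fn} (h : Van A0 B0 c G) (s : T.Ins) :
    Van A0 B0 (c + (if s.1 ≠ 0 ∧ B0 s.2 then 1 else 0) - (if s.1 = 0 ∧ A0 s.2 then 1 else 0))
      (fun S => G (s :: S)) := by
  intro S hS
  apply h
  simp only [nA, nB]
  push_cast
  split_ifs at * <;> omega

theorem mul_van {A0 B0 : T.A → Prop} {c₁ c₂ : ℤ} {G H : T.Fn} (w : ℕ)
    (hG : Van A0 B0 c₁ G) (hH : Van A0 B0 c₂ H) (S : List T.Ins)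
    (hS : (nB B0 S : ℤ) + c₁ + c₂ ≤ nA A0 S + 1) : mul w G H S = 0 := by
  induction S generalizing w c₁ c₂ G H with
  | nil =>
    show G [] * H [] = 0
    simp only [nA, nB] at hS
    push_cast at hS
    rcases le_or_gt c₁ 0 with h | h
    · rw [hG [] (by simp only [nA, nB]; push_cast; omega), zero_mul]
    · rw [hH [] (by simp only [nA, nB]; push_cast; omega), mul_zero]
  | cons s S ih =>
    rw [mul_cons]
    simp only [nA, nB] at hS
    push_cast at hS
    rw [ih w (hG.cons s) hH (by split_ifs at * <;> omega),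
      ih (w + T.par s.2) hG (hH.cons s) (by split_ifs at * <;> omega)]
    ring

/-- The classes `A0` are divisor-like classes of degree zero on all curves, and the product with such
a class leads from the classes `B0` to classes not in `B0`. -/
def Ext (T : Target) (F : Corr T) (A0 B0 : T.A → Prop) : Prop :=
  ∀ a, A0 a → T.par a % 2 = 0 ∧ ∃ P : Divisor T, (∀ b, P.H T.one b ≠ 0 ↔ b = a) ∧
    (∀ x y, P.H x y ≠ 0 → B0 x ∧ ¬ B0 y) ∧ DivEq T P (fun _ => 0) F

theorem two_len {M : Matrix T.A T.A ℂ} {S : List T.Ins} (h : 3 ≤ S.length) :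
    two T M S = 0 := by
  match S with
  | [] => simp at h
  | [s] => simp at h
  | [s, t] => simp at h
  | s :: t :: u :: S => exact two_long _ _ _ _ _

theorem cst_len {c : ℂ} {S : List T.Ins} (h : 3 ≤ S.length) : cst T c S = 0 := by
  match S with
  | [] => simp at h
  | s :: S => rfl

theorem F_van {F : Corr T} (hF : IsGW T F) {A0 B0 : T.A → Prop} (hE : Ext T F A0 B0)
    (g : ℕ) (d : T.B) : Van A0 B0 4 (F g d) := by
  have main : ∀ n, ∀ S : List T.Ins, nB B0 S = n → n + 4 ≤ nA A0 S → F g d S = 0 := by
    intro n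
    induction n using Nat.strong_induction_on with
    | _ n ihn =>
      intro S hB hA
      obtain ⟨a, ha, hAa⟩ := nA_pos (A0 := A0) (S := S) (by omega)
      obtain ⟨hpar, P, hP1, hP2, hP3⟩ := hE a hAa
      obtain ⟨S₁, S₂, rfl⟩ := List.append_of_mem ha
      rw [(hF.sy g d).ev.front (x := (0, a)) hpar]
      have hA' : nA A0 (S₁ ++ S₂) + 1 = nA A0 (S₁ ++ (0, a) :: S₂) := by
        rw [nA_append, nA_append]
        simp only [nA]
        rw [if_pos ⟨trivial, hAa⟩]
        omega
      have hB' : nB B0 (S₁ ++ S₂) = nB B0 (S₁ ++ (0, a) :: S₂) := by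
        rw [nB_append, nB_append]
        simp only [nB]
        rw [if_neg (by simp)]
        omega
      have hlen := nA_le A0 (S₁ ++ S₂)
      have h3 := hP3 g d (S₁ ++ S₂)
      have h4 : der (divh P) (F g d) (S₁ ++ S₂) = 0 := by
        apply der_van
        intro U₁ s U₂ hU x hx
        unfold divh at hx
        split_ifs at hx with hs
        · exact absurd rfl hx
        · obtain ⟨b, hb, hxb⟩ : ∃ b, P.H s.2 b ≠ 0 ∧ x = (s.1 - 1, b) := by
            by_contra hno
            push Not at hno
            apply hx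
            rw [Finsupp.finsetSum_apply]
            apply Finset.sum_eq_zero
            intro b _
            rw [Finsupp.single_apply]
            split_ifs with h5
            · by_contra h6
              exact hno b h6 h5.symm
            · rfl
          obtain ⟨hb1, hb2⟩ := hP2 _ _ hb
          have e1 : nB B0 (U₁ ++ x :: U₂) + 1 = nB B0 (U₁ ++ s :: U₂) := by
            have p1 : ¬ (x.1 ≠ 0 ∧ B0 x.2) := by
              rw [hxb]
              exact fun h => hb2 h.2
            rw [nB_append, nB_append]
            simp only [nB]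
            rw [if_neg p1, if_pos ⟨hs, hb1⟩]
            omega
          have e2 : nA A0 (U₁ ++ s :: U₂) ≤ nA A0 (U₁ ++ x :: U₂) := by
            rw [nA_append, nA_append]
            simp only [nA]
            rw [if_neg (fun h => hs h.1)]
            omega
          rw [← hU] at e1 e2
          exact ihn _ (by omega) _ rfl (by omega)
      have h5 : ∑ b, P.H T.one b * F g d ((0, b) :: (S₁ ++ S₂)) =
          P.H T.one a * F g d ((0, a) :: (S₁ ++ S₂)) := by
        rw [Finset.sum_eq_single_of_mem a (by simp)]
        intro b _ hb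
        have : P.H T.one b = 0 := by
          by_contra h0
          exact hb ((hP1 b).mp h0)
        rw [this, zero_mul]
      rw [h5, h4, two_len (by omega), cst_len (by omega)] at h3
      simp only [ite_self, zero_mul, add_zero] at h3
      exact (mul_eq_zero.mp h3).resolve_left ((hP1 a).mpr rfl)
  intro S hS
  exact main _ S rfl (by omega)

/-- All Virasoro constraints with many insertions `τ_0(ω)` hold. -/
theorem z_van {F : Corr T} (hF : IsGW T F) {A0 B0 : T.A → Prop} (hE : Ext T F A0 B0)
    (K g : ℕ) (d : T.B) (S : List T.Ins) (hS : nB B0 S + 9 ≤ nA A0 S) : z F K g d S = 0 := by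
  have hlen := nA_le A0 S
  have hcons : ∀ (g : ℕ) (d : T.B) (x : T.Ins), Van A0 B0 5 (fun S => F g d (x :: S)) := by
    intro g d x U hU
    apply (F_van hF hE g d).cons x U
    split_ifs <;> omega
  have h1 : ((shift T K).sum fun x c => c * F g d (x :: S)) = 0 := by
    rw [Finsupp.sum]
    apply Finset.sum_eq_zero
    intro x _
    have := hcons g d x S (by omega)
    simp only at this
    rw [this, mul_zero]
  have h2 : der (vir T K) (F g d) S = 0 := by
    apply der_van
    intro U₁ s U₂ hU x _
    apply F_van hF hE g d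
    rw [hU] at hS
    rw [nA_append, nB_append] at *
    simp only [nA, nB] at *
    push_cast
    split_ifs at * <;> omega
  have h3 : ∀ xy : T.Ins × T.Ins, ((if g = 0 then 0 else F (g - 1) d (xy.1 :: xy.2 :: S)) +
        ∑ gg ∈ antidiagonal g, ∑ dd ∈ antidiagonal d, mul (T.par xy.2.2)
          (fun S => F gg.1 dd.1 (xy.1 :: S)) (fun S => F gg.2 dd.2 (xy.2 :: S)) S) = 0 := by
    intro xy
    have e1 : F (g - 1) d (xy.1 :: xy.2 :: S) = 0 := by
      apply F_van hF hE
      simp only [nA, nB]
      push_cast
      split_ifs <;> omega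
    rw [e1]
    simp only [ite_self, zero_add]
    apply Finset.sum_eq_zero
    intro gg _
    apply Finset.sum_eq_zero
    intro dd _
    exact mul_van _ (hcons _ _ _) (hcons _ _ _) S (by omega)
  have h4 : ((biv T K).sum fun xy c => c *
      ((if g = 0 then 0 else F (g - 1) d (xy.1 :: xy.2 :: S)) +
        ∑ gg ∈ antidiagonal g, ∑ dd ∈ antidiagonal d, mul (T.par xy.2.2)
          (fun S => F gg.1 dd.1 (xy.1 :: S)) (fun S => F gg.2 dd.2 (xy.2 :: S)) S)) = 0 := by
    rw [Finsupp.sum]
    apply Finset.sum_eq_zero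
    intro xy _
    rw [h3, mul_zero]
  unfold z
  rw [h1, h2, h4, two_len (by omega), cst_len (by omega)]
  simp

end Vale.Agent.P269.R2.H637
end
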